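import Vale.Agent.P368.Main

namespace Vale.Agent.Results.P368.Parity

open Vale.Agent.P368

/-- Constant-depth QAC circuits on polynomially many qubits have vanishing parity correlation. -/
theorem result : ∀ (d c : ℕ) (ε : ℝ), 0 < ε → ∃ n₀ : ℕ, ∀ n ≥ n₀, ∀ a : ℕ, n + a ≤ n ^ c →
    ∀ C : List (List (Gate (n + a))), C.length ≤ d → (∀ L ∈ C, LayerWF L) → ∀ o : Fin (n + a),
      |corr C o| < ε ∧ ∃ x : Fin n → Bool, prob C o x (par x) < 1 / 2 + ε :=
  fun d c _ hε => main d c hε

end Vale.Agent.Results.P368.Parity
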